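import Vale.Agent.P015.R2.H825.CountB

/-!
(B6): the two-step counting sum of helper116's plan (P015, row 86).
-/

namespace Vale.Agent.P015.R2.H825

open Finset

section

variable {ι : Type*} {h : ℂ → ℝ} {K c0 Cn : ℝ} {q0 : ι → GaussianInt} {M : ℂ} {P0 P A t : ℝ}

/-- one cell, a transversal in the first coordinate -/
theorem cell_trans (hW : WR h K c0 Cn) (T : Finset (Σ _ : ι, GaussianInt))
    (hA : 1 ≤ A) (ht : 1 ≤ t) (hP0 : 1 ≤ P0) (hM : 1 ≤ ‖M‖)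
    (hPP : 12 * A ^ 2 * t * P0 ^ 2 ≤ P) (hK1 : 2 * A * P0 ^ 2 * P ≤ K)
    (hc1 : A ^ 2 * ‖M‖ ≤ c0 * (P0 * P))
    (hq0lo : ∀ z ∈ T, P0 ≤ A * ‖(q0 z.1 : ℂ)‖) (hq0up : ∀ z ∈ T, ‖(q0 z.1 : ℂ)‖ ≤ P0)
    (hinj : ∀ x ∈ T, ∀ y ∈ T, q0 x.1 = q0 y.1 → x = y)
    (hlo : ∀ z ∈ T, P ≤ A * ‖(z.2 : ℂ)‖) (hup : ∀ z ∈ T, ‖(z.2 : ℂ)‖ ≤ P)
    (hcell : ∀ x ∈ T, ∀ y ∈ T, ‖(x.2 : ℂ) - y.2‖ ≤ 6 * A * t * P0) :
    ∑ z ∈ T, h (M / (q0 z.1 * z.2)) ≤ 2 * A ^ 3 * P0 * Cn := by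
  have hA0 : 0 < A := by linarith
  have hP0' : 0 < P0 := by linarith
  have hP : 0 < P := lt_of_lt_of_le (by positivity) hPP
  have hK0 : 0 < K := lt_of_lt_of_le (by positivity) hK1
  have key := inv_sum hW T (fun z => (q0 z.1 : ℂ) * z.2) (M := M) (X := P0 * P) (A := A ^ 2)
    (S := P / (2 * A)) (by linarith) (by positivity) (by positivity) (by positivity)
    (by
      rw [div_le_iff₀ (by positivity)]
      have h1 : (1 : ℝ) ≤ A ^ 2 * P0 * (2 * A) := by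
        have h2 : (1 : ℝ) ≤ A ^ 2 := one_le_pow₀ hA
        have h3 : (1 : ℝ) ≤ A ^ 2 * P0 := one_le_mul_of_one_le_of_one_le h2 hP0
        exact one_le_mul_of_one_le_of_one_le h3 (by linarith)
      nlinarith)
    (by
      have h1 : (P0 * P) ^ 2 = (2 * A * P0 ^ 2 * P) * (1 * (P / (2 * A))) := by
        field_simp
      rw [h1]
      gcongr)
    hc1
    (by
      intro z hz
      rw [norm_mul]
      calc P0 * P ≤ (A * ‖(q0 z.1 : ℂ)‖) * (A * ‖(z.2 : ℂ)‖) :=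
            mul_le_mul (hq0lo z hz) (hlo z hz) hP.le (by positivity)
        _ = A ^ 2 * (‖(q0 z.1 : ℂ)‖ * ‖(z.2 : ℂ)‖) := by ring)
    (by
      intro z hz
      rw [norm_mul]
      exact mul_le_mul (hq0up z hz) (hup z hz) (norm_nonneg _) hP0'.le)
    (by
      intro x hx y hy hxy
      have hne : q0 x.1 ≠ q0 y.1 := fun h => hxy (hinj x hx y hy h)
      have h1 : 1 ≤ ‖(q0 x.1 : ℂ) - q0 y.1‖ := by
        rw [← GaussianInt.toComplex_sub]
        exact one_le_norm_of_ne (sub_ne_zero.mpr hne)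
      have h2 : (q0 x.1 : ℂ) * x.2 - (q0 y.1 : ℂ) * y.2
          = ((q0 x.1 : ℂ) - q0 y.1) * x.2 + (q0 y.1 : ℂ) * ((x.2 : ℂ) - y.2) := by ring
      have h3 : ‖((q0 x.1 : ℂ) - q0 y.1) * x.2‖ - ‖(q0 y.1 : ℂ) * ((x.2 : ℂ) - y.2)‖
          ≤ ‖(q0 x.1 : ℂ) * x.2 - (q0 y.1 : ℂ) * y.2‖ := by
        rw [h2]
        have := norm_sub_norm_le (((q0 x.1 : ℂ) - q0 y.1) * x.2)
          (-((q0 y.1 : ℂ) * ((x.2 : ℂ) - y.2)))
        rwa [norm_neg, sub_neg_eq_add] at this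
      refine le_trans ?_ h3
      rw [norm_mul, norm_mul]
      have h4 : P / A ≤ ‖(q0 x.1 : ℂ) - q0 y.1‖ * ‖(x.2 : ℂ)‖ := by
        rw [div_le_iff₀ hA0]
        have := hlo x hx
        have h5 : ‖(x.2 : ℂ)‖ ≤ ‖(q0 x.1 : ℂ) - q0 y.1‖ * ‖(x.2 : ℂ)‖ :=
          le_mul_of_one_le_left (norm_nonneg _) h1
        nlinarith
      have h6 : ‖(q0 y.1 : ℂ)‖ * ‖(x.2 : ℂ) - y.2‖ ≤ P0 * (6 * A * t * P0) :=
        mul_le_mul (hq0up y hy) (hcell x hx y hy) (norm_nonneg _) hP0'.le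
      have h7 : P0 * (6 * A * t * P0) ≤ P / (2 * A) := by
        rw [le_div_iff₀ (by positivity)]
        calc P0 * (6 * A * t * P0) * (2 * A) = 12 * A ^ 2 * t * P0 ^ 2 := by ring
          _ ≤ P := hPP
      have h8 : P / A = P / (2 * A) + P / (2 * A) := by field_simp; ring
      linarith)
  refine key.trans (le_of_eq ?_)
  field_simp

/-- one cell -/
theorem cell_bound (hW : WR h K c0 Cn) (h0 : ∀ z, 0 ≤ h z) (Z : Finset (Σ _ : ι, GaussianInt))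
    (hA : 1 ≤ A) (ht : 1 ≤ t) (hP0 : 1 ≤ P0) (hM : 1 ≤ ‖M‖)
    (hPP : 12 * A ^ 2 * t * P0 ^ 2 ≤ P) (hK1 : 2 * A * P0 ^ 2 * P ≤ K)
    (hc1 : A ^ 2 * ‖M‖ ≤ c0 * (P0 * P))
    (hq0lo : ∀ z ∈ Z, P0 ≤ A * ‖(q0 z.1 : ℂ)‖) (hq0up : ∀ z ∈ Z, ‖(q0 z.1 : ℂ)‖ ≤ P0)
    (hinj : ∀ x ∈ Z, ∀ y ∈ Z, q0 x.1 = q0 y.1 → x.1 = y.1)
    (hlo : ∀ z ∈ Z, P ≤ A * ‖(z.2 : ℂ)‖) (hup : ∀ z ∈ Z, ‖(z.2 : ℂ)‖ ≤ P)
    (hcl : ∀ x ∈ Z, ∀ y ∈ Z, x.1 = y.1 → q0 x.1 ∣ x.2 - y.2)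
    (hcell : ∀ x ∈ Z, ∀ y ∈ Z, ‖(x.2 : ℂ) - y.2‖ ≤ 6 * A * t * P0) :
    ∑ z ∈ Z, h (M / (q0 z.1 * z.2)) ≤ 338 * A ^ 7 * t ^ 2 * P0 * Cn := by
  classical
  have hA0 : 0 < A := by linarith
  have hP0' : 0 < P0 := by linarith
  have key := cell_sum Z (fun z => z.1) (fun _ => (1 : ℝ)) (fun z => h (M / (q0 z.1 * z.2)))
    (G := 169 * A ^ 4 * t ^ 2) (H := 2 * A ^ 3 * P0 * Cn) (fun _ _ => zero_le_one)
    (by positivity) (fun z _ => h0 _) (by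
      intro i
      rw [Finset.sum_const, nsmul_eq_mul, mul_one]
      rcases (Z.filter (fun z => z.1 = i)).eq_empty_or_nonempty with he | ⟨z0, hz0⟩
      · rw [he, Finset.card_empty, Nat.cast_zero]; positivity
      set F := Z.filter (fun z => z.1 = i) with hF
      have hz0' := Finset.mem_filter.mp hz0
      have hinjF : ∀ x ∈ F, ∀ y ∈ F, x.2 = y.2 → x = y := by
        intro x hx y hy hxy
        have hx' := (Finset.mem_filter.mp hx).2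
        have hy' := (Finset.mem_filter.mp hy).2
        exact Sigma.ext (hx'.trans hy'.symm) (heq_of_eq hxy)
      have hcard : (F.image (fun z => z.2)).card = F.card :=
        Finset.card_image_of_injOn (fun x hx y hy hxy => hinjF x hx y hy hxy)
      have hqlo : P0 ≤ A * ‖(q0 i : ℂ)‖ := by rw [← hz0'.2]; exact hq0lo z0 hz0'.1
      have hqn : 0 < ‖(q0 i : ℂ)‖ := by
        by_contra hcon
        have h1 : ‖(q0 i : ℂ)‖ = 0 := le_antisymm (not_lt.mp hcon) (norm_nonneg _)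
        rw [h1, mul_zero] at hqlo
        linarith
      have hqi : q0 i ≠ 0 := by
        intro h1
        rw [h1, GaussianInt.toComplex_zero, norm_zero] at hqn
        exact lt_irrefl _ hqn
      have h2 := card_class (F.image (fun z => z.2)) (q0 i) hqi (R := 6 * A * t * P0)
        (by
          intro a ha b hb
          obtain ⟨x, hx, rfl⟩ := Finset.mem_image.mp ha
          obtain ⟨y, hy, rfl⟩ := Finset.mem_image.mp hb
          have hx' := Finset.mem_filter.mp hx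
          have hy' := Finset.mem_filter.mp hy
          rw [← hx'.2]
          exact hcl x hx'.1 y hy'.1 (hx'.2.trans hy'.2.symm))
        (by
          intro a ha b hb
          obtain ⟨x, hx, rfl⟩ := Finset.mem_image.mp ha
          obtain ⟨y, hy, rfl⟩ := Finset.mem_image.mp hb
          rw [GaussianInt.toComplex_sub]
          exact hcell x (Finset.mem_filter.mp hx).1 y (Finset.mem_filter.mp hy).1)
      rw [hcard] at h2
      refine h2.trans ?_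
      have h3 : 6 * A * t * P0 / ‖(q0 i : ℂ)‖ ≤ 6 * A ^ 2 * t := by
        rw [div_le_iff₀ hqn]
        calc 6 * A * t * P0 ≤ 6 * A * t * (A * ‖(q0 i : ℂ)‖) := by gcongr
          _ = 6 * A ^ 2 * t * ‖(q0 i : ℂ)‖ := by ring
      have h4 : (1 : ℝ) ≤ A ^ 2 * t := one_le_mul_of_one_le_of_one_le (one_le_pow₀ hA) ht
      have h5 : 2 * (6 * A * t * P0 / ‖(q0 i : ℂ)‖) + 1 ≤ 13 * (A ^ 2 * t) := by linarith
      calc (2 * (6 * A * t * P0 / ‖(q0 i : ℂ)‖) + 1) ^ 2 ≤ (13 * (A ^ 2 * t)) ^ 2 :=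
            pow_le_pow_left₀ (by positivity) h5 2
        _ = 169 * A ^ 4 * t ^ 2 := by ring)
    (by
      intro T hTZ hT
      exact cell_trans hW T hA ht hP0 hM hPP hK1 hc1 (fun z hz => hq0lo z (hTZ hz))
        (fun z hz => hq0up z (hTZ hz))
        (fun x hx y hy hxy => hT x hx y hy (hinj x (hTZ hx) y (hTZ hy) hxy))
        (fun z hz => hlo z (hTZ hz)) (fun z hz => hup z (hTZ hz))
        (fun x hx y hy => hcell x (hTZ hx) y (hTZ hy)))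
  simp only [one_mul] at key
  refine key.trans (le_of_eq ?_)
  ring

/-- the sum over a transversal of the cells -/
theorem cells_bound (hW : WR h K c0 Cn) {w : ℂ} (T : Finset (Σ _ : ι, GaussianInt))
    (hA : 1 ≤ A) (ht : 1 ≤ t) (hP0 : 1 ≤ P0) (hM : 1 ≤ ‖M‖) (hw : 1 ≤ ‖w‖) (hwt : ‖w‖ ≤ t)
    (hPP : 12 * A ^ 2 * t * P0 ^ 2 ≤ P) (hK2 : P ^ 3 ≤ K * (t * P0))
    (hc2 : A ^ 2 * (‖M‖ * ‖w‖) ≤ c0 * P ^ 2)
    (hq0up : ∀ z ∈ T, ‖(q0 z.1 : ℂ)‖ ≤ P0)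
    (hlo : ∀ z ∈ T, P ≤ A * ‖(z.2 : ℂ)‖) (hup : ∀ z ∈ T, ‖(z.2 : ℂ)‖ ≤ P)
    (hlo' : ∀ z ∈ T, P ≤ A * ‖(z.2 : ℂ) - q0 z.1 * w‖)
    (hup' : ∀ z ∈ T, ‖(z.2 : ℂ) - q0 z.1 * w‖ ≤ P)
    (hT : ∀ x ∈ T, ∀ y ∈ T, cell (3 * A * t * P0) x.2 = cell (3 * A * t * P0) y.2 → x = y) :
    ∑ z ∈ T, h (M * w / (z.2 * (z.2 - q0 z.1 * w))) ≤ 16 * A ^ 2 * P / (t * P0) * Cn := by
  classical
  have hA0 : 0 < A := by linarith
  have ht0 : 0 < t := by linarith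
  have hP0' : 0 < P0 := by linarith
  have hP : 0 < P := lt_of_lt_of_le (by positivity) hPP
  have hK0 : 0 < K := by
    by_contra hcon
    have h1 : K * (t * P0) ≤ 0 := mul_nonpos_of_nonpos_of_nonneg (not_lt.mp hcon) (by positivity)
    have h2 : 0 < P ^ 3 := by positivity
    linarith
  set L := 3 * A * t * P0 with hL
  have hL0 : 0 < L := by positivity
  set CC : Finset ((ℤ × ℤ) × (Bool × Bool)) :=
    (({0, 1} : Finset ℤ) ×ˢ ({0, 1} : Finset ℤ)) ×ˢ Finset.univ with hCC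
  have hmap : ∀ z ∈ T, col (cell L z.2) ∈ CC := by
    intro z _
    rw [hCC, Finset.mem_product, Finset.mem_product]
    refine ⟨⟨?_, ?_⟩, Finset.mem_univ _⟩ <;>
    · simp only [col, Finset.mem_insert, Finset.mem_singleton]
      omega
  rw [← Finset.sum_fiberwise_of_maps_to hmap]
  have hCCcard : (CC.card : ℝ) = 16 := by
    rw [hCC]
    norm_num [Finset.card_product]
  have hone : ∀ k ∈ CC, ∑ z ∈ T with col (cell L z.2) = k,
      h (M * w / (z.2 * (z.2 - q0 z.1 * w))) ≤ Cn * (A ^ 2 * P ^ 2 / (P * (t * P0))) := by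
    intro k _
    refine inv_sum hW (T.filter (fun z => col (cell L z.2) = k))
      (fun z => (z.2 : ℂ) * (z.2 - q0 z.1 * w)) (M := M * w) (X := P ^ 2) (A := A ^ 2)
      (S := P * (t * P0)) ?_ ?_ ?_ ?_ ?_ ?_ ?_ ?_ ?_ ?_
    · rw [norm_mul]; nlinarith
    · positivity
    · positivity
    · positivity
    · have h1 : t * P0 ≤ 12 * A ^ 2 * t * P0 ^ 2 := by
        have h2 : (1 : ℝ) ≤ 12 * A ^ 2 * P0 := by
          have : (1 : ℝ) ≤ A ^ 2 * P0 := one_le_mul_of_one_le_of_one_le (one_le_pow₀ hA) hP0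
          linarith
        calc t * P0 = 1 * (t * P0) := by ring
          _ ≤ (12 * A ^ 2 * P0) * (t * P0) := by gcongr
          _ = 12 * A ^ 2 * t * P0 ^ 2 := by ring
      calc P * (t * P0) ≤ P * P := by gcongr; linarith
        _ = 1 * P ^ 2 := by ring
        _ ≤ A ^ 2 * P ^ 2 := by gcongr; exact one_le_pow₀ hA
    · rw [norm_mul]
      calc (P ^ 2) ^ 2 = P ^ 3 * P := by ring
        _ ≤ (K * (t * P0)) * P := by gcongr
        _ = K * (1 * 1 * (P * (t * P0))) := by ring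
        _ ≤ K * (‖M‖ * ‖w‖ * (P * (t * P0))) := by gcongr
    · rw [norm_mul]; exact hc2
    · intro z hz
      have hz' := (Finset.mem_filter.mp hz).1
      rw [norm_mul]
      calc P ^ 2 = P * P := by ring
        _ ≤ (A * ‖(z.2 : ℂ)‖) * (A * ‖(z.2 : ℂ) - q0 z.1 * w‖) :=
          mul_le_mul (hlo z hz') (hlo' z hz') hP.le (by positivity)
        _ = A ^ 2 * (‖(z.2 : ℂ)‖ * ‖(z.2 : ℂ) - q0 z.1 * w‖) := by ring
    · intro z hz
      have hz' := (Finset.mem_filter.mp hz).1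
      rw [norm_mul, sq]
      exact mul_le_mul (hup z hz') (hup' z hz') (norm_nonneg _) hP.le
    · intro x hx y hy hxy
      have hx' := Finset.mem_filter.mp hx
      have hy' := Finset.mem_filter.mp hy
      have hcne : cell L x.2 ≠ cell L y.2 := fun h => hxy (hT x hx'.1 y hy'.1 h)
      obtain ⟨hf1, hf2⟩ := cell_far hL0 hcne (hx'.2.trans hy'.2.symm)
      have e1 : (x.2 : ℂ) * (x.2 - q0 x.1 * w) - (y.2 : ℂ) * (y.2 - q0 y.1 * w)
          = ((x.2 : ℂ) - y.2) * ((x.2 : ℂ) + y.2)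
            - ((x.2 : ℂ) * q0 x.1 * w - (y.2 : ℂ) * q0 y.1 * w) := by ring
      have h3 : ‖((x.2 : ℂ) - y.2) * ((x.2 : ℂ) + y.2)‖
          - ‖(x.2 : ℂ) * q0 x.1 * w - (y.2 : ℂ) * q0 y.1 * w‖
          ≤ ‖(x.2 : ℂ) * (x.2 - q0 x.1 * w) - (y.2 : ℂ) * (y.2 - q0 y.1 * w)‖ := by
        rw [e1]
        exact norm_sub_norm_le _ _
      refine le_trans ?_ h3
      have h4 : ‖(x.2 : ℂ) * q0 x.1 * w - (y.2 : ℂ) * q0 y.1 * w‖ ≤ P * P0 * t + P * P0 * t := by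
        refine (norm_sub_le _ _).trans (add_le_add ?_ ?_)
        · rw [norm_mul, norm_mul]
          have := hup x hx'.1
          have := hq0up x hx'.1
          gcongr
        · rw [norm_mul, norm_mul]
          have := hup y hy'.1
          have := hq0up y hy'.1
          gcongr
      have h5 : L * (P / A) ≤ ‖((x.2 : ℂ) - y.2) * ((x.2 : ℂ) + y.2)‖ := by
        rw [norm_mul]
        refine mul_le_mul hf1 ?_ (by positivity) (norm_nonneg _)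
        rw [div_le_iff₀ hA0]
        have := hlo x hx'.1
        nlinarith
      have h6 : L * (P / A) = 3 * (P * P0 * t) := by
        rw [hL]; field_simp
      nlinarith
  calc ∑ k ∈ CC, ∑ z ∈ T with col (cell L z.2) = k, h (M * w / (z.2 * (z.2 - q0 z.1 * w)))
      ≤ ∑ k ∈ CC, Cn * (A ^ 2 * P ^ 2 / (P * (t * P0))) := Finset.sum_le_sum hone
    _ = 16 * (Cn * (A ^ 2 * P ^ 2 / (P * (t * P0)))) := by
        rw [Finset.sum_const, nsmul_eq_mul, hCCcard]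
    _ = 16 * A ^ 2 * P / (t * P0) * Cn := by field_simp

/-- (B6) -/
theorem B6 (hW : WR h K c0 Cn) (h0 : ∀ z, 0 ≤ h z) (hCn : 0 ≤ Cn) (I : Finset ι)
    (S : ι → Finset GaussianInt) {w : ℂ}
    (hA : 1 ≤ A) (ht : 1 ≤ t) (hP0 : 1 ≤ P0) (hM : 1 ≤ ‖M‖) (hw : 1 ≤ ‖w‖) (hwt : ‖w‖ ≤ t)
    (hPP : 12 * A ^ 2 * t * P0 ^ 2 ≤ P) (hK1 : 2 * A * P0 ^ 2 * P ≤ K)
    (hK2 : P ^ 3 ≤ K * (t * P0))
    (hc1 : A ^ 2 * ‖M‖ ≤ c0 * (P0 * P)) (hc2 : A ^ 2 * (‖M‖ * ‖w‖) ≤ c0 * P ^ 2)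
    (hq0lo : ∀ i ∈ I, P0 ≤ A * ‖(q0 i : ℂ)‖) (hq0up : ∀ i ∈ I, ‖(q0 i : ℂ)‖ ≤ P0)
    (hinj : ∀ i ∈ I, ∀ j ∈ I, q0 i = q0 j → i = j)
    (hlo : ∀ i ∈ I, ∀ q ∈ S i, P ≤ A * ‖(q : ℂ)‖) (hup : ∀ i ∈ I, ∀ q ∈ S i, ‖(q : ℂ)‖ ≤ P)
    (hlo' : ∀ i ∈ I, ∀ q ∈ S i, P ≤ A * ‖(q : ℂ) - q0 i * w‖)
    (hup' : ∀ i ∈ I, ∀ q ∈ S i, ‖(q : ℂ) - q0 i * w‖ ≤ P)
    (hcl : ∀ i ∈ I, ∀ a ∈ S i, ∀ b ∈ S i, q0 i ∣ a - b) :
    ∑ i ∈ I, ∑ q ∈ S i, h (M / (q0 i * q)) * h (M * w / (q * (q - q0 i * w)))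
      ≤ 5408 * A ^ 9 * Cn ^ 2 * t * P := by
  classical
  have hA0 : 0 < A := by linarith
  have ht0 : 0 < t := by linarith
  have hP0' : 0 < P0 := by linarith
  have hP : 0 < P := lt_of_lt_of_le (by positivity) hPP
  set L := 3 * A * t * P0 with hL
  have hL0 : 0 < L := by positivity
  rw [Finset.sum_sigma' I S (fun i q => h (M / (q0 i * q)) * h (M * w / (q * (q - q0 i * w))))]
  have hmem : ∀ z ∈ I.sigma S, z.1 ∈ I ∧ z.2 ∈ S z.1 := fun z hz => Finset.mem_sigma.mp hz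
  have key := cell_sum (I.sigma S) (fun z => cell L z.2) (fun z => h (M / (q0 z.1 * z.2)))
    (fun z => h (M * w / (z.2 * (z.2 - q0 z.1 * w)))) (G := 338 * A ^ 7 * t ^ 2 * P0 * Cn)
    (H := 16 * A ^ 2 * P / (t * P0) * Cn) (fun z _ => h0 _) (by positivity) (fun z _ => h0 _)
    (by
      intro c
      refine cell_bound hW h0 ((I.sigma S).filter (fun z => cell L z.2 = c)) hA ht hP0 hM hPP hK1
        hc1 ?_ ?_ ?_ ?_ ?_ ?_ ?_
      · intro z hz; exact hq0lo _ (hmem z (Finset.mem_filter.mp hz).1).1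
      · intro z hz; exact hq0up _ (hmem z (Finset.mem_filter.mp hz).1).1
      · intro x hx y hy hxy
        exact hinj _ (hmem x (Finset.mem_filter.mp hx).1).1 _
          (hmem y (Finset.mem_filter.mp hy).1).1 hxy
      · intro z hz
        have := hmem z (Finset.mem_filter.mp hz).1
        exact hlo _ this.1 _ this.2
      · intro z hz
        have := hmem z (Finset.mem_filter.mp hz).1
        exact hup _ this.1 _ this.2
      · intro x hx y hy hxy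
        have h1 := hmem x (Finset.mem_filter.mp hx).1
        have h2 := hmem y (Finset.mem_filter.mp hy).1
        exact hcl _ h1.1 _ h1.2 _ (by rw [hxy]; exact h2.2)
      · intro x hx y hy
        have h1 := cell_close hL0 ((Finset.mem_filter.mp hx).2.trans (Finset.mem_filter.mp hy).2.symm)
        refine h1.trans (le_of_eq ?_)
        rw [hL]; ring)
    (by
      intro T hTZ hT
      refine cells_bound hW T hA ht hP0 hM hw hwt hPP hK2 hc2 ?_ ?_ ?_ ?_ ?_ ?_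
      · intro z hz; exact hq0up _ (hmem z (hTZ hz)).1
      · intro z hz; exact hlo _ (hmem z (hTZ hz)).1 _ (hmem z (hTZ hz)).2
      · intro z hz; exact hup _ (hmem z (hTZ hz)).1 _ (hmem z (hTZ hz)).2
      · intro z hz; exact hlo' _ (hmem z (hTZ hz)).1 _ (hmem z (hTZ hz)).2
      · intro z hz; exact hup' _ (hmem z (hTZ hz)).1 _ (hmem z (hTZ hz)).2
      · intro x hx y hy hxy; exact hT x hx y hy hxy)
  refine key.trans (le_of_eq ?_)
  field_simp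
  ring

end

end Vale.Agent.P015.R2.H825
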