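import Vale.Agent.P015.R2.H116.Defs
import Vale.Agent.P015.R2.H825.CountC

/-!
The statements `count_diag` and `count_off` of `H116/Spec.lean`.
-/

namespace Vale.Agent.P015.R2.H825

open Finset Vale.Agent.P015.R2.H116

theorem wr_of_reg {h : ℂ → ℝ} {K : ℕ} {B : ℝ} (hreg : Reg h K B) :
    WR h ((K : ℝ) / 16) (1 / 32) B := by
  classical
  intro T d1 d2 h2 hK h12 h1 hx hs
  obtain ⟨_, _, _, hr⟩ := hreg
  set n := T.card with hn
  set e : T ≃ Fin n := T.equivFin with he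
  set s : GaussianInt → ℂ := fun z => if hz : z.re.toNat < n then (e.symm ⟨z.re.toNat, hz⟩ : ℂ)
    else 0 with hsdef
  set J : Finset GaussianInt := (Finset.range n).image (fun k : ℕ => (⟨(k : ℤ), 0⟩ : GaussianInt))
    with hJ
  have hinj : ∀ a ∈ Finset.range n, ∀ b ∈ Finset.range n,
      (⟨(a : ℤ), 0⟩ : GaussianInt) = ⟨(b : ℤ), 0⟩ → a = b := by
    intro a _ b _ hab
    have := congrArg Zsqrtd.re hab
    simpa using this
  have hsk : ∀ k (hk : k < n), s ⟨(k : ℤ), 0⟩ = (e.symm ⟨k, hk⟩ : ℂ) := by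
    intro k hk
    simp only [hsdef]
    rw [dif_pos (by simpa using hk)]
    congr 1
  have hmemJ : ∀ i ∈ J, ∃ k, ∃ hk : k < n, i = ⟨(k : ℤ), 0⟩ ∧ s i = (e.symm ⟨k, hk⟩ : ℂ) := by
    intro i hi
    obtain ⟨k, hk, rfl⟩ := Finset.mem_image.mp hi
    have hk' := Finset.mem_range.mp hk
    exact ⟨k, hk', rfl, hsk k hk'⟩
  have key := hr J s d1 d2 (by
    intro i hi
    obtain ⟨k, hk, _, h3⟩ := hmemJ i hi
    rw [h3]
    exact hx _ (e.symm ⟨k, hk⟩).2) (by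
    intro i hi j hj hij
    obtain ⟨k, hk, h3, h4⟩ := hmemJ i hi
    obtain ⟨l, hl, h5, h6⟩ := hmemJ j hj
    rw [h4, h6]
    refine hs _ (e.symm ⟨k, hk⟩).2 _ (e.symm ⟨l, hl⟩).2 ?_
    intro hkl
    have h7 := Subtype.ext hkl
    have h8 := e.symm.injective h7
    have h9 : k = l := by simpa using h8
    exact hij (by rw [h3, h5, h9])) (by linarith) h12 h1
  refine le_trans (le_of_eq ?_) key
  rw [hJ, Finset.sum_image hinj]
  have h10 : ∑ k ∈ Finset.range n, h (s ⟨(k : ℤ), 0⟩) = ∑ k : Fin n, h (e.symm k : ℂ) := by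
    rw [Finset.sum_range]
    refine Finset.sum_congr rfl (fun k _ => ?_)
    rw [hsk k k.2]
  rw [h10, Equiv.sum_comp e.symm (fun x : T => h (x : ℂ))]
  exact (Finset.sum_coe_sort T h).symm

theorem count_diag {h : ℂ → ℝ} {K : ℕ} {B : ℝ} (hB : 1 ≤ B) (hreg : Reg h K B)
    {X : ℝ} (hX : 1 ≤ X) {M : GaussianInt} (hM : M ≠ 0)
    (hMX : 128 * ‖(M : ℂ)‖ ≤ X) (hXK : 16 * X ^ 2 ≤ K)
    (S : Finset GaussianInt) (hS : ∀ m ∈ S, X / 4 ≤ ‖(m : ℂ)‖ ∧ ‖(m : ℂ)‖ ≤ X) :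
    ∑ m ∈ S, h (M / m) ≤ 4 * B * X := by
  have hM1 := one_le_norm_of_ne hM
  have key := inv_sum (wr_of_reg hreg) S (fun m => (m : ℂ)) (M := (M : ℂ)) (X := X) (A := 4)
    (S := 1) (by linarith) (by linarith) (by norm_num) one_pos (by linarith)
    (by
      have hK0 : (0 : ℝ) ≤ K := Nat.cast_nonneg _
      nlinarith)
    (by linarith)
    (fun m hm => by have := (hS m hm).1; linarith) (fun m hm => (hS m hm).2)
    (by
      intro a _ b _ hab
      rw [← GaussianInt.toComplex_sub]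
      exact one_le_norm_of_ne (sub_ne_zero.mpr hab))
  refine key.trans (le_of_eq ?_)
  ring

theorem count_off : ∃ C : ℝ, 1 ≤ C ∧ ∀ {h : ℂ → ℝ} {K : ℕ} {B : ℝ} (_ : 1 ≤ B) (_ : Reg h K B)
    {Q0 Q t : ℝ} (_ : 1 ≤ t) (_ : C * t ≤ Q0) (_ : Q0 ^ 3 ≤ Q) (_ : C * Q ^ 3 ≤ K)
    {M w : GaussianInt} (_ : M ≠ 0) (_ : C * ‖(M : ℂ)‖ ≤ Q0) (_ : w ≠ 0) (_ : ‖(w : ℂ)‖ ≤ 4 * t)
    (A : Finset GaussianInt) (_ : ∀ a ∈ A, Q0 / 2 ≤ ‖(a : ℂ)‖ ∧ ‖(a : ℂ)‖ ≤ Q0)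
    (E : GaussianInt → Finset GaussianInt)
    (_ : ∀ a ∈ A, ∀ q ∈ E a, Q / 2 ≤ ‖(q : ℂ)‖ ∧ ‖(q : ℂ)‖ ≤ Q)
    (_ : ∀ a ∈ A, ∀ q ∈ E a, ∀ q' ∈ E a, a ∣ q - q'),
    ∑ a ∈ A, ∑ q ∈ (E a).filter (fun q => q - a * w ∈ E a),
      h (M / (a * q)) * h (M * w / (q * (q - a * w))) ≤ C * B ^ 2 * t * Q := by
  refine ⟨11075584, by norm_num, ?_⟩
  intro h K B hB hreg Q0 Q t ht hCt hQ hCQ M w hM hCM hw hwt A hA E hE hcl
  have hM1 := one_le_norm_of_ne hM
  have hw1 := one_le_norm_of_ne hw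
  have hQ0 : 11075584 ≤ Q0 := by linarith
  have hQ0' : 0 < Q0 := by linarith
  have hQ01 : 1 ≤ Q0 := by linarith
  have h1 : Q0 ≤ Q0 ^ 3 := le_self_pow₀ hQ01 (by norm_num)
  have h2 : Q0 ^ 2 ≤ Q0 ^ 3 := pow_le_pow_right₀ hQ01 (by norm_num)
  have hQ1 : 1 ≤ Q := by linarith
  have hQpos : 0 < Q := by linarith
  have hKQ : (0 : ℝ) ≤ K := Nat.cast_nonneg _
  have h3 : Q0 ^ 2 * Q ≤ Q ^ 3 := by
    calc Q0 ^ 2 * Q ≤ Q * Q := by gcongr; linarith
      _ ≤ Q * Q * Q := le_mul_of_one_le_right (by positivity) hQ1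
      _ = Q ^ 3 := by ring
  have key := B6 (wr_of_reg hreg) hreg.1 (by linarith : (0 : ℝ) ≤ B) A
    (fun a => (E a).filter (fun q => q - a * w ∈ E a)) (q0 := fun a => a) (M := (M : ℂ))
    (w := (w : ℂ)) (P0 := Q0) (P := Q) (A := 2) (t := 4 * t) (by norm_num) (by linarith) hQ01 hM1
    hw1 hwt
    (by
      calc 12 * (2 : ℝ) ^ 2 * (4 * t) * Q0 ^ 2 = (192 * t) * Q0 ^ 2 := by ring
        _ ≤ Q0 * Q0 ^ 2 := by gcongr; linarith
        _ = Q0 ^ 3 := by ring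
        _ ≤ Q := hQ)
    (by nlinarith)
    (by
      have h4 : 1 ≤ 4 * t * Q0 := by nlinarith
      calc Q ^ 3 = Q ^ 3 * 1 := by ring
        _ ≤ ((K : ℝ) / 16) * (4 * t * Q0) := by
          refine mul_le_mul (by nlinarith [pow_pos hQpos 3]) h4 zero_le_one (by positivity))
    (by nlinarith)
    (by
      have h5 : ‖(M : ℂ)‖ * ‖(w : ℂ)‖ ≤ Q0 / 11075584 * (4 * (Q0 / 11075584)) := by
        refine mul_le_mul ?_ ?_ (norm_nonneg _) (by positivity)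
        · rw [le_div_iff₀ (by norm_num)]; linarith
        · refine hwt.trans ?_
          have : t ≤ Q0 / 11075584 := by rw [le_div_iff₀ (by norm_num)]; linarith
          linarith
      have h6 : Q0 ^ 2 ≤ Q ^ 2 := by
        have : Q0 ≤ Q := by linarith
        gcongr
      nlinarith)
    (fun a ha => by have := (hA a ha).1; linarith) (fun a ha => (hA a ha).2)
    (fun a _ b _ hab => hab)
    (fun a ha q hq => by
      have := (hE a ha q (Finset.mem_filter.mp hq).1).1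
      linarith)
    (fun a ha q hq => (hE a ha q (Finset.mem_filter.mp hq).1).2)
    (fun a ha q hq => by
      have := (hE a ha _ (Finset.mem_filter.mp hq).2).1
      rw [GaussianInt.toComplex_sub, GaussianInt.toComplex_mul] at this
      linarith)
    (fun a ha q hq => by
      have := (hE a ha _ (Finset.mem_filter.mp hq).2).2
      rwa [GaussianInt.toComplex_sub, GaussianInt.toComplex_mul] at this)
    (fun a ha q hq q' hq' => hcl a ha q (Finset.mem_filter.mp hq).1 q' (Finset.mem_filter.mp hq').1)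
  refine key.trans (le_of_eq ?_)
  ring

end Vale.Agent.P015.R2.H825
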