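import Mathlib

/-!
Analytic counting part of (P5), (P6) of helper116's plan (P015, row 86).
`h : ℂ → ℝ` is a nonnegative weight satisfying the one-dimensional large sieve type bound `WR`.
-/

namespace Vale.Agent.P015.R2.H825

open Finset

/-- the weight `h` has mass at most `Cn * (d1 / d2)` on every `d2`-separated set in the disc of
radius `d1` about `0`, `1 / K ≤ d2 ≤ d1 ≤ c0` -/
def WR (h : ℂ → ℝ) (K c0 Cn : ℝ) : Prop :=
  ∀ (s : Finset ℂ) (d1 d2 : ℝ), 0 < d2 → 1 ≤ K * d2 → d2 ≤ d1 → d1 ≤ c0 →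
    (∀ x ∈ s, ‖x‖ ≤ d1) → (∀ x ∈ s, ∀ y ∈ s, x ≠ y → d2 ≤ ‖x - y‖) →
    ∑ x ∈ s, h x ≤ Cn * (d1 / d2)

theorem WR.index {h : ℂ → ℝ} {K c0 Cn : ℝ} (hW : WR h K c0 Cn) {ι : Type*}
    (s : Finset ι) (x : ι → ℂ) (d1 d2 : ℝ) (h2 : 0 < d2) (hK : 1 ≤ K * d2) (h12 : d2 ≤ d1)
    (h1 : d1 ≤ c0) (hx : ∀ i ∈ s, ‖x i‖ ≤ d1)
    (hs : ∀ i ∈ s, ∀ j ∈ s, i ≠ j → d2 ≤ ‖x i - x j‖) :
    ∑ i ∈ s, h (x i) ≤ Cn * (d1 / d2) := by
  classical
  have hinj : ∀ i ∈ s, ∀ j ∈ s, x i = x j → i = j := by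
    intro i hi j hj hij
    by_contra hne
    have := hs i hi j hj hne
    rw [hij, sub_self, norm_zero] at this
    linarith
  have h3 := hW (s.image x) d1 d2 h2 hK h12 h1 (by
    intro y hy
    obtain ⟨i, hi, rfl⟩ := Finset.mem_image.mp hy
    exact hx i hi) (by
    intro y hy z hz hyz
    obtain ⟨i, hi, rfl⟩ := Finset.mem_image.mp hy
    obtain ⟨j, hj, rfl⟩ := Finset.mem_image.mp hz
    exact hs i hi j hj (fun h => hyz (by rw [h])))
  rwa [Finset.sum_image hinj] at h3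

/-- inversion: `m i` separated by `S`, of modulus in `[X / A, X]`; the points `M / m i` are
`‖M‖ S / X ^ 2` separated in the disc of radius `A ‖M‖ / X`. -/
theorem inv_sum {h : ℂ → ℝ} {K c0 Cn : ℝ} (hW : WR h K c0 Cn) {ι : Type*}
    (s : Finset ι) (m : ι → ℂ) {M : ℂ} {X A S : ℝ} (hM : 0 < ‖M‖) (hX : 0 < X) (hA : 0 < A)
    (hS : 0 < S) (hSX : S ≤ A * X) (hK : X ^ 2 ≤ K * (‖M‖ * S)) (hc : A * ‖M‖ ≤ c0 * X)
    (hlo : ∀ i ∈ s, X ≤ A * ‖m i‖) (hup : ∀ i ∈ s, ‖m i‖ ≤ X)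
    (hsep : ∀ i ∈ s, ∀ j ∈ s, i ≠ j → S ≤ ‖m i - m j‖) :
    ∑ i ∈ s, h (M / m i) ≤ Cn * (A * X / S) := by
  have hmpos : ∀ i ∈ s, 0 < ‖m i‖ := by
    intro i hi
    have := hlo i hi
    by_contra hcon
    have h0 : ‖m i‖ = 0 := le_antisymm (not_lt.mp hcon) (norm_nonneg _)
    rw [h0, mul_zero] at this
    linarith
  have key := hW.index s (fun i => M / m i) (A * ‖M‖ / X) (‖M‖ * S / X ^ 2) (by positivity)
    (by
      rw [mul_div_assoc', le_div_iff₀ (by positivity), one_mul]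
      exact hK)
    (by
      rw [div_le_div_iff₀ (by positivity) hX]
      nlinarith [mul_le_mul_of_nonneg_left hSX (by positivity : 0 ≤ ‖M‖ * X)])
    (by rwa [div_le_iff₀ hX])
    (by
      intro i hi
      rw [norm_div, div_le_div_iff₀ (hmpos i hi) hX]
      have := mul_le_mul_of_nonneg_left (hlo i hi) hM.le
      linarith)
    (by
      intro i hi j hj hij
      have hi0 : m i ≠ 0 := norm_pos_iff.mp (hmpos i hi)
      have hj0 : m j ≠ 0 := norm_pos_iff.mp (hmpos j hj)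
      have h1 : M / m i - M / m j = M * (m j - m i) / (m i * m j) := by
        field_simp
      rw [h1, norm_div, norm_mul, norm_mul,
        div_le_div_iff₀ (by positivity) (mul_pos (hmpos i hi) (hmpos j hj))]
      have h2 : S ≤ ‖m j - m i‖ := hsep j hj i hi (Ne.symm hij)
      have h3 : ‖m i‖ * ‖m j‖ ≤ X * X :=
        mul_le_mul (hup i hi) (hup j hj) (norm_nonneg _) hX.le
      calc ‖M‖ * S * (‖m i‖ * ‖m j‖) ≤ ‖M‖ * ‖m j - m i‖ * (X * X) := by gcongr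
        _ = ‖M‖ * ‖m j - m i‖ * X ^ 2 := by ring)
  refine key.trans (le_of_eq ?_)
  congr 1
  field_simp

/-- abstract cell argument -/
theorem cell_sum {ι κ : Type*} [DecidableEq κ] (Z : Finset ι) (key : ι → κ) (f g : ι → ℝ)
    (hf : ∀ z ∈ Z, 0 ≤ f z) {G H : ℝ} (hG0 : 0 ≤ G) (hg : ∀ z ∈ Z, 0 ≤ g z)
    (h1 : ∀ c, ∑ z ∈ Z with key z = c, f z ≤ G)
    (h2 : ∀ T ⊆ Z, (∀ x ∈ T, ∀ y ∈ T, key x = key y → x = y) → ∑ z ∈ T, g z ≤ H) :
    ∑ z ∈ Z, f z * g z ≤ G * H := by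
  classical
  rcases Z.eq_empty_or_nonempty with hZe | ⟨z00, _⟩
  · have hH : 0 ≤ H := by
      have := h2 ∅ (Finset.empty_subset _) (by simp)
      simpa using this
    rw [hZe, Finset.sum_empty]
    positivity
  have : Nonempty ι := ⟨z00⟩
  have hex : ∀ c ∈ Z.image key, ∃ z ∈ Z, key z = c ∧ ∀ y ∈ Z, key y = c → g y ≤ g z := by
    intro c hc
    obtain ⟨z0, hz0, hz0c⟩ := Finset.mem_image.mp hc
    obtain ⟨z, hz, hmax⟩ := Finset.exists_max_image (Z.filter (fun z => key z = c)) g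
      ⟨z0, Finset.mem_filter.mpr ⟨hz0, hz0c⟩⟩
    rw [Finset.mem_filter] at hz
    exact ⟨z, hz.1, hz.2, fun y hy hyc => hmax y (Finset.mem_filter.mpr ⟨hy, hyc⟩)⟩
  choose! r hrZ hrk hrm using hex
  have hsum : ∑ z ∈ Z, f z * g z = ∑ c ∈ Z.image key, ∑ z ∈ Z with key z = c, f z * g z :=
    (Finset.sum_fiberwise_of_maps_to (fun z hz => Finset.mem_image_of_mem key hz) _).symm
  rw [hsum]
  have hstep : ∀ c ∈ Z.image key, ∑ z ∈ Z with key z = c, f z * g z ≤ G * g (r c) := by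
    intro c hc
    calc ∑ z ∈ Z with key z = c, f z * g z ≤ ∑ z ∈ Z with key z = c, f z * g (r c) := by
          refine Finset.sum_le_sum (fun z hz => ?_)
          rw [Finset.mem_filter] at hz
          exact mul_le_mul_of_nonneg_left (hrm c hc z hz.1 hz.2) (hf z hz.1)
      _ = (∑ z ∈ Z with key z = c, f z) * g (r c) := by rw [Finset.sum_mul]
      _ ≤ G * g (r c) := mul_le_mul_of_nonneg_right (h1 c) (hg _ (hrZ c hc))
  refine (Finset.sum_le_sum hstep).trans ?_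
  rw [← Finset.mul_sum]
  refine mul_le_mul_of_nonneg_left ?_ hG0
  have hinj : ∀ c ∈ Z.image key, ∀ c' ∈ Z.image key, r c = r c' → c = c' := by
    intro c hc c' hc' hcc
    rw [← hrk c hc, ← hrk c' hc', hcc]
  rw [← Finset.sum_image (f := g) hinj]
  refine h2 _ ?_ ?_
  · intro z hz
    obtain ⟨c, hc, rfl⟩ := Finset.mem_image.mp hz
    exact hrZ c hc
  · intro x hx y hy hxy
    obtain ⟨c, hc, rfl⟩ := Finset.mem_image.mp hx
    obtain ⟨c', hc', rfl⟩ := Finset.mem_image.mp hy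
    rw [hrk c hc, hrk c' hc'] at hxy
    rw [hxy]

/-- counting in one residue class: a set of Gaussian integers in one class modulo `q ≠ 0`, with
mutual distances at most `R`, has at most `(2 R / ‖q‖ + 1) ^ 2` elements -/
theorem card_class (T : Finset GaussianInt) (q : GaussianInt) (hq : q ≠ 0) {R : ℝ}
    (hcl : ∀ a ∈ T, ∀ b ∈ T, q ∣ a - b)
    (hR : ∀ a ∈ T, ∀ b ∈ T, ‖((a - b : GaussianInt) : ℂ)‖ ≤ R) :
    (T.card : ℝ) ≤ (2 * (R / ‖(q : ℂ)‖) + 1) ^ 2 := by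
  classical
  rcases T.eq_empty_or_nonempty with rfl | ⟨z0, hz0⟩
  · simp only [Finset.card_empty, Nat.cast_zero]; positivity
  have hqn : 0 < ‖(q : ℂ)‖ := by
    rw [norm_pos_iff]
    intro h
    exact hq (by simpa using h)
  have hR0 : 0 ≤ R := (norm_nonneg _).trans (hR z0 hz0 z0 hz0)
  choose! u hu using (fun a (ha : a ∈ T) => hcl a ha z0 hz0)
  set B : ℝ := R / ‖(q : ℂ)‖ with hB
  have hB0 : 0 ≤ B := by positivity
  set N : ℕ := ⌊B⌋₊ with hN
  have hub : ∀ a ∈ T, ‖((u a : GaussianInt) : ℂ)‖ ≤ B := by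
    intro a ha
    have h1 := hR a ha z0 hz0
    rw [hu a ha] at h1
    rw [GaussianInt.toComplex_mul, norm_mul] at h1
    rw [hB, le_div_iff₀ hqn]
    linarith
  have hmem : ∀ a ∈ T, ((u a).re, (u a).im) ∈
      (Finset.Icc (-(N : ℤ)) N) ×ˢ (Finset.Icc (-(N : ℤ)) N) := by
    intro a ha
    have h1 := hub a ha
    have hre : |((u a).re : ℝ)| ≤ B := by
      have := Complex.abs_re_le_norm ((u a : GaussianInt) : ℂ)
      rw [← GaussianInt.intCast_re] at this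
      exact this.trans h1
    have him : |((u a).im : ℝ)| ≤ B := by
      have := Complex.abs_im_le_norm ((u a : GaussianInt) : ℂ)
      rw [← GaussianInt.intCast_im] at this
      exact this.trans h1
    have aux : ∀ k : ℤ, |(k : ℝ)| ≤ B → k ∈ Finset.Icc (-(N : ℤ)) N := by
      intro k hk
      have h2 : (k.natAbs : ℝ) ≤ B := by
        rw [Nat.cast_natAbs]; exact_mod_cast hk
      have h3 : k.natAbs ≤ N := Nat.le_floor h2
      rw [Finset.mem_Icc]
      omega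
    rw [Finset.mem_product]
    exact ⟨aux _ hre, aux _ him⟩
  have hinj : ∀ a ∈ T, ∀ b ∈ T, ((u a).re, (u a).im) = ((u b).re, (u b).im) → a = b := by
    intro a ha b hb hab
    have h1 : u a = u b := by
      rw [Prod.mk.injEq] at hab
      exact Zsqrtd.ext hab.1 hab.2
    have h2 : a - z0 = b - z0 := by rw [hu a ha, hu b hb, h1]
    exact sub_left_injective h2
  have hcard := Finset.card_le_card_of_injOn (fun a => ((u a).re, (u a).im)) hmem hinj
  rw [Finset.card_product, Int.card_Icc] at hcard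
  have h4 : ((N : ℤ) + 1 - -(N : ℤ)).toNat = 2 * N + 1 := by omega
  rw [h4] at hcard
  have h5 : (T.card : ℝ) ≤ (2 * (N : ℝ) + 1) * (2 * (N : ℝ) + 1) := by exact_mod_cast hcard
  have h6 : (N : ℝ) ≤ B := Nat.floor_le hB0
  have h7 : 0 ≤ (N : ℝ) := Nat.cast_nonneg _
  refine h5.trans ?_
  rw [← sq]
  exact pow_le_pow_left₀ (by positivity) (by linarith) 2

end Vale.Agent.P015.R2.H825
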