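import Vale.Agent.P015.R2.H825.Count

/-!
(B5) and (B6): the two counting sums of helper116's plan (P015, row 86).
-/

namespace Vale.Agent.P015.R2.H825

open Finset

theorem one_le_norm_of_ne {z : GaussianInt} (hz : z ≠ 0) : 1 ≤ ‖(z : ℂ)‖ := by
  have h1 : (0 : ℤ) < z.norm := GaussianInt.norm_pos.mpr hz
  have h2 : (1 : ℝ) ≤ (z.norm : ℝ) := by exact_mod_cast h1
  rw [GaussianInt.intCast_real_norm, Complex.normSq_eq_norm_sq] at h2
  by_contra hcon
  rw [not_le] at hcon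
  nlinarith [norm_nonneg (z : ℂ)]

/-- (B5'), per `q0`: the points `M / (q0 q)` with `q` in one class modulo `q0`. -/
theorem B5 {h : ℂ → ℝ} {K c0 Cn : ℝ} (hW : WR h K c0 Cn) (S : Finset GaussianInt)
    {q0 : GaussianInt} (hq0 : q0 ≠ 0) {M : ℂ} {P A : ℝ} (hM : 0 < ‖M‖) (hP : 0 < P) (hA : 0 < A)
    (hqP : ‖(q0 : ℂ)‖ ≤ A * P) (hK : P ^ 2 ≤ K * ‖M‖) (hc : A * ‖M‖ ≤ c0 * (P * ‖(q0 : ℂ)‖))
    (hlo : ∀ q ∈ S, P ≤ A * ‖(q : ℂ)‖) (hup : ∀ q ∈ S, ‖(q : ℂ)‖ ≤ P)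
    (hcl : ∀ a ∈ S, ∀ b ∈ S, q0 ∣ a - b) :
    ∑ q ∈ S, h (M / (q0 * q)) ≤ Cn * (A * P / ‖(q0 : ℂ)‖) := by
  have hqn : 0 < ‖(q0 : ℂ)‖ := lt_of_lt_of_le one_pos (one_le_norm_of_ne hq0)
  have key := inv_sum hW S (fun q => (q : ℂ)) (M := M / q0) (X := P) (A := A) (S := ‖(q0 : ℂ)‖)
    (by rw [norm_div]; positivity) hP hA hqn hqP
    (by
      rw [norm_div, div_mul_cancel₀ _ hqn.ne']
      exact hK)
    (by
      rw [norm_div, mul_div_assoc', div_le_iff₀ hqn]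
      linarith)
    hlo hup
    (by
      intro a ha b hb hab
      obtain ⟨c, hc⟩ := hcl a ha b hb
      have hc0 : c ≠ 0 := by
        intro h
        rw [h, mul_zero] at hc
        exact hab (sub_eq_zero.mp hc)
      rw [← GaussianInt.toComplex_sub, hc, GaussianInt.toComplex_mul, norm_mul]
      have := one_le_norm_of_ne hc0
      nlinarith)
  refine le_trans (le_of_eq ?_) key
  refine Finset.sum_congr rfl (fun q _ => ?_)
  rw [div_div]

theorem floor_close {a b L : ℝ} (hL : 0 < L) (h : ⌊a / L⌋ = ⌊b / L⌋) : |a - b| ≤ L := by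
  have h1 := Int.floor_le (a / L)
  have h2 := Int.lt_floor_add_one (a / L)
  have h3 := Int.floor_le (b / L)
  have h4 := Int.lt_floor_add_one (b / L)
  rw [h] at h1 h2
  have h5 : |a / L - b / L| ≤ 1 := by
    rw [abs_le]; constructor <;> linarith
  rw [← sub_div, abs_div, abs_of_pos hL, div_le_one hL] at h5
  exact h5

theorem floor_far {a b L : ℝ} (hL : 0 < L) (h : ⌊a / L⌋ ≠ ⌊b / L⌋)
    (h2 : ⌊a / L⌋ % 2 = ⌊b / L⌋ % 2) : L ≤ |a - b| := by
  have hkey : ∀ a b : ℝ, ⌊a / L⌋ % 2 = ⌊b / L⌋ % 2 → ⌊b / L⌋ < ⌊a / L⌋ → L ≤ |a - b| := by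
    intro a b h2 hlt
    have h3 : ⌊b / L⌋ + 2 ≤ ⌊a / L⌋ := by omega
    have h4 := Int.floor_le (a / L)
    have h5 := Int.lt_floor_add_one (b / L)
    have h6 : ((⌊b / L⌋ : ℤ) : ℝ) + 2 ≤ ((⌊a / L⌋ : ℤ) : ℝ) := by exact_mod_cast h3
    have h7 : 1 ≤ a / L - b / L := by linarith
    rw [← sub_div, le_div_iff₀ hL, one_mul] at h7
    exact h7.trans (le_abs_self _)
  rcases lt_or_gt_of_ne h with h3 | h3
  · rw [abs_sub_comm]
    exact hkey b a h2.symm h3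
  · exact hkey a b h2 h3

theorem floor_sign {a L : ℝ} (hL : 0 < L) : 0 ≤ ⌊a / L⌋ ↔ 0 ≤ a := by
  rw [Int.floor_nonneg, div_nonneg_iff]
  constructor
  · rintro (⟨h, _⟩ | ⟨_, h⟩)
    · exact h
    · linarith
  · intro h
    exact Or.inl ⟨h, hL.le⟩

/-- the cell of a Gaussian integer -/
noncomputable def cell (L : ℝ) (q : GaussianInt) : ℤ × ℤ := (⌊(q.re : ℝ) / L⌋, ⌊(q.im : ℝ) / L⌋)

/-- the colour of a cell -/
def col (c : ℤ × ℤ) : (ℤ × ℤ) × (Bool × Bool) :=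
  ((c.1 % 2, c.2 % 2), (decide (0 ≤ c.1), decide (0 ≤ c.2)))

theorem cell_close {L : ℝ} (hL : 0 < L) {a b : GaussianInt} (h : cell L a = cell L b) :
    ‖(a : ℂ) - b‖ ≤ 2 * L := by
  rw [cell, cell, Prod.mk.injEq] at h
  have h1 := floor_close hL h.1
  have h2 := floor_close hL h.2
  have h3 := Complex.norm_le_abs_re_add_abs_im ((a : ℂ) - b)
  rw [Complex.sub_re, Complex.sub_im, ← GaussianInt.intCast_re, ← GaussianInt.intCast_re,
    ← GaussianInt.intCast_im, ← GaussianInt.intCast_im] at h3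
  linarith

theorem cell_far {L : ℝ} (hL : 0 < L) {a b : GaussianInt} (h : cell L a ≠ cell L b)
    (hc : col (cell L a) = col (cell L b)) :
    L ≤ ‖(a : ℂ) - b‖ ∧ ‖(a : ℂ)‖ ≤ ‖(a : ℂ) + b‖ := by
  rw [col, col, Prod.mk.injEq, Prod.mk.injEq, Prod.mk.injEq] at hc
  obtain ⟨⟨hc1, hc2⟩, hc3, hc4⟩ := hc
  rw [decide_eq_decide] at hc3 hc4
  simp only [cell] at hc1 hc2 hc3 hc4
  rw [floor_sign hL, floor_sign hL] at hc3 hc4
  constructor
  · by_cases h1 : ⌊(a.re : ℝ) / L⌋ = ⌊(b.re : ℝ) / L⌋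
    · have h2 : ⌊(a.im : ℝ) / L⌋ ≠ ⌊(b.im : ℝ) / L⌋ := by
        intro h2
        exact h (by rw [cell, cell, h1, h2])
      have h3 := floor_far hL h2 hc2
      refine h3.trans ?_
      have := Complex.abs_im_le_norm ((a : ℂ) - b)
      rwa [Complex.sub_im, ← GaussianInt.intCast_im, ← GaussianInt.intCast_im] at this
    · have h3 := floor_far hL h1 hc1
      refine h3.trans ?_
      have := Complex.abs_re_le_norm ((a : ℂ) - b)
      rwa [Complex.sub_re, ← GaussianInt.intCast_re, ← GaussianInt.intCast_re] at this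
  · have hre : 0 ≤ (a.re : ℝ) * b.re := by
      rcases le_or_gt 0 (a.re : ℝ) with h1 | h1
      · exact mul_nonneg h1 (hc3.mp h1)
      · have h2 : (b.re : ℝ) < 0 := by
          by_contra hcon
          rw [not_lt] at hcon
          exact absurd (hc3.mpr hcon) (not_le.mpr h1)
        exact (mul_pos_of_neg_of_neg h1 h2).le
    have him : 0 ≤ (a.im : ℝ) * b.im := by
      rcases le_or_gt 0 (a.im : ℝ) with h1 | h1
      · exact mul_nonneg h1 (hc4.mp h1)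
      · have h2 : (b.im : ℝ) < 0 := by
          by_contra hcon
          rw [not_lt] at hcon
          exact absurd (hc4.mpr hcon) (not_le.mpr h1)
        exact (mul_pos_of_neg_of_neg h1 h2).le
    have h5 : ‖(a : ℂ)‖ ^ 2 ≤ ‖(a : ℂ) + b‖ ^ 2 := by
      rw [← Complex.normSq_eq_norm_sq, ← Complex.normSq_eq_norm_sq, Complex.normSq_apply,
        Complex.normSq_apply, Complex.add_re, Complex.add_im, ← GaussianInt.intCast_re,
        ← GaussianInt.intCast_re, ← GaussianInt.intCast_im, ← GaussianInt.intCast_im]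
      nlinarith [sq_nonneg (b.re : ℝ), sq_nonneg (b.im : ℝ)]
    exact le_of_sq_le_sq h5 (norm_nonneg _)

end Vale.Agent.P015.R2.H825
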